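import Mathlib.MeasureTheory.Integral.CircleAverage
import Mathlib.Analysis.SpecialFunctions.PolarCoord

/-! # P284, theorem AE (helper409): polar coordinates -/

open scoped Topology ENNReal Real
open Filter Set Metric MeasureTheory Function

noncomputable section

namespace Vale.Agent.P284.H409.AE

theorem polar_symm (t θ : ℝ) :
    Complex.polarCoord.symm (t, θ) = (t : ℂ) * Complex.exp (θ * Complex.I) := by
  rw [Complex.polarCoord_symm_apply, Complex.exp_mul_I]
  simp [Complex.ofReal_cos, Complex.ofReal_sin]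

/-- almost all circles around `z₀` meet a null set in a null set -/
theorem ae_circle (N : Set ℂ) (hN : volume N = 0) (z₀ : ℂ) :
    ∀ᵐ t ∂(volume.restrict (Ioi (0 : ℝ))), ∀ᵐ θ ∂(volume.restrict (Ioo (-π) π)),
      circleMap z₀ t θ ∉ N := by
  set N' := toMeasurable volume N with hN'
  have hNm : MeasurableSet N' := measurableSet_toMeasurable _ _
  have hN0 : volume N' = 0 := by rw [hN', measure_toMeasurable, hN]
  set g : ℂ → ℝ≥0∞ := fun z => N'.indicator (fun _ => 1) (z₀ + z) with hg
  have hgm : Measurable g :=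
    (measurable_const.indicator hNm).comp (measurable_const.add measurable_id)
  have hg0 : ∫⁻ z, g z = 0 := by
    rw [hg]
    simp only
    rw [lintegral_add_left_eq_self (fun z => N'.indicator (fun _ => (1 : ℝ≥0∞)) z) z₀,
      lintegral_indicator hNm]
    simp [hN0]
  rw [← Complex.lintegral_comp_polarCoord_symm] at hg0
  have h1 : Measurable fun p : ℝ × ℝ => Complex.polarCoord.symm p := by
    simp only [Complex.polarCoord_symm_apply]
    fun_prop
  have hm : Measurable fun p : ℝ × ℝ => ENNReal.ofReal p.1 • g (Complex.polarCoord.symm p) := by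
    simp only [smul_eq_mul]
    exact (ENNReal.measurable_ofReal.comp measurable_fst).mul (hgm.comp h1)
  have h2 : (polarCoord.target : Set (ℝ × ℝ)) = Ioi (0 : ℝ) ×ˢ Ioo (-π) π := rfl
  rw [h2, Measure.volume_eq_prod, ← Measure.prod_restrict, lintegral_eq_zero_iff hm] at hg0
  have h3 := Measure.ae_ae_of_ae_prod hg0
  filter_upwards [h3, ae_restrict_mem measurableSet_Ioi] with t ht ht0
  filter_upwards [ht] with θ hθ hmem
  simp only [smul_eq_mul, Pi.zero_apply, mul_eq_zero, ENNReal.ofReal_eq_zero] at hθ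
  have ht1 : ¬ t ≤ 0 := not_le.2 ht0
  rcases hθ with h | h
  · exact ht1 h
  · rw [polar_symm] at h
    have h4 : z₀ + (t : ℂ) * Complex.exp (θ * Complex.I) ∈ N' :=
      subset_toMeasurable _ _ hmem
    rw [hg] at h
    simp only at h
    rw [indicator_of_mem h4] at h
    exact one_ne_zero h

theorem exists_circle (w : ℂ → ℝ) (z₀ : ℂ) (c r : ℝ) (hr : 0 < r)
    (h : ∀ᵐ z ∂(volume.restrict (ball z₀ r)), w z = c) :
    ∃ ρ ∈ Ioo (0 : ℝ) r, Real.circleAverage w z₀ ρ = c := by
  rw [ae_restrict_iff' measurableSet_ball] at h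
  have h1 := ae_circle _ (ae_iff.1 h) z₀
  have h2 : ∀ᵐ t ∂(volume.restrict (Ioo (0 : ℝ) r)), ∀ᵐ θ ∂(volume.restrict (Ioo (-π) π)),
      circleMap z₀ t θ ∉ {z | ¬ (z ∈ ball z₀ r → w z = c)} :=
    ae_restrict_of_ae_restrict_of_subset Ioo_subset_Ioi_self h1
  have hne : (volume : Measure ℝ).restrict (Ioo (0 : ℝ) r) ≠ 0 := by
    rw [Ne, Measure.restrict_eq_zero, Real.volume_Ioo, ENNReal.ofReal_eq_zero]
    linarith
  have : (ae ((volume : Measure ℝ).restrict (Ioo (0 : ℝ) r))).NeBot := ae_neBot.2 hne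
  obtain ⟨t, ht, ht0⟩ := (h2.and (ae_restrict_mem measurableSet_Ioo)).exists
  refine ⟨t, ht0, ?_⟩
  have hper : Function.Periodic (fun θ => w (circleMap z₀ t θ)) (2 * π) :=
    (periodic_circleMap z₀ t).comp w
  have h3 : (∫ θ in (0 : ℝ)..2 * π, w (circleMap z₀ t θ)) = ∫ θ in (-π)..π, w (circleMap z₀ t θ) := by
    have h4 := hper.intervalIntegral_add_eq 0 (-π)
    rw [zero_add] at h4
    rw [h4]
    congr 1
    ring
  have h5 : (∫ θ in (-π)..π, w (circleMap z₀ t θ)) = ∫ θ in (-π)..π, c := by
    rw [intervalIntegral.integral_of_le (by linarith [Real.pi_pos]),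
      intervalIntegral.integral_of_le (by linarith [Real.pi_pos]),
      integral_Ioc_eq_integral_Ioo, integral_Ioc_eq_integral_Ioo]
    refine integral_congr_ae ?_
    filter_upwards [ht] with θ hθ
    have h6 : circleMap z₀ t θ ∈ ball z₀ r := by
      rw [mem_ball, dist_eq_norm, circleMap_sub_center, norm_circleMap_zero, abs_of_pos ht0.1]
      exact ht0.2
    by_contra h7
    exact hθ fun h8 => h7 (h8 h6)
  rw [Real.circleAverage_def, h3, h5, intervalIntegral.integral_const, smul_eq_mul, smul_eq_mul]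
  field_simp
  ring

end Vale.Agent.P284.H409.AE
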