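import Vale.Agent.P284.H409.AE.Fub
import Mathlib.Analysis.Complex.RealDeriv
import Mathlib.MeasureTheory.Constructions.BorelSpace.Order
import Mathlib.Topology.Semicontinuity.Basic

/-! # P284, theorem AE (helper409): rectangles in `ℂ` -/

open scoped Topology ENNReal
open Filter Set Metric MeasureTheory Function

noncomputable section

namespace Vale.Agent.P284.H409.AE

/-- upper semicontinuous functions on the disc are measurable -/
theorem measurable_ind {w : ℂ → ℝ} (h : ∀ z ∈ ball (0 : ℂ) 1, UpperSemicontinuousAt w z) :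
    Measurable ((ball (0 : ℂ) 1).indicator w) := by
  refine measurable_of_Iio fun c => ?_
  have ho : IsOpen {z | z ∈ ball (0 : ℂ) 1 ∧ w z < c} := by
    rw [isOpen_iff_mem_nhds]
    rintro z ⟨hz, hc⟩
    filter_upwards [isOpen_ball.mem_nhds hz, h z hz c hc] with y hy hyc
    exact ⟨hy, hyc⟩
  by_cases h0 : 0 < c
  · have : (ball (0 : ℂ) 1).indicator w ⁻¹' Iio c =
        {z | z ∈ ball (0 : ℂ) 1 ∧ w z < c} ∪ (ball (0 : ℂ) 1)ᶜ := by
      ext z
      by_cases hz : z ∈ ball (0 : ℂ) 1
      · simp only [mem_preimage, mem_Iio, indicator_of_mem hz, mem_union, mem_ofPred_eq, hz, true_and,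
          mem_compl_iff, not_true_eq_false, or_false]
      · simp only [mem_preimage, mem_Iio, indicator_of_notMem hz, mem_union, mem_ofPred_eq, hz,
          false_and, mem_compl_iff, not_false_eq_true, or_true, h0]
    rw [this]
    exact ho.measurableSet.union measurableSet_ball.compl
  · have : (ball (0 : ℂ) 1).indicator w ⁻¹' Iio c = {z | z ∈ ball (0 : ℂ) 1 ∧ w z < c} := by
      ext z
      by_cases hz : z ∈ ball (0 : ℂ) 1
      · simp only [mem_preimage, mem_Iio, indicator_of_mem hz, mem_ofPred_eq, hz, true_and]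
      · simp only [mem_preimage, mem_Iio, indicator_of_notMem hz, mem_ofPred_eq, hz, false_and, h0]
    rw [this]
    exact ho.measurableSet

/-- the point `x + i y` -/
abbrev pt (x y : ℝ) : ℂ := (x : ℂ) + (y : ℂ) * Complex.I

theorem pt_eq (p : ℝ × ℝ) : Complex.measurableEquivRealProd.symm p = pt p.1 p.2 := by
  apply Complex.ext <;> simp [Complex.measurableEquivRealProd]

theorem mp : MeasurePreserving Complex.measurableEquivRealProd.symm
    (volume : Measure (ℝ × ℝ)) (volume : Measure ℂ) :=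
  Complex.volume_preserving_equiv_real_prod.symm _

theorem lint_eq (g : ℂ → ℝ≥0∞) (hg : Measurable g) : ∫⁻ p : ℝ × ℝ, g (pt p.1 p.2) = ∫⁻ z, g z := by
  rw [← mp.lintegral_comp hg]
  simp only [pt_eq]

theorem continuous_pt : Continuous fun p : ℝ × ℝ => pt p.1 p.2 := by
  unfold pt
  fun_prop

theorem lint_hor {a b c d : ℝ} (g : ℂ → ℝ≥0∞) (hg : Measurable g) (S : Set ℂ) (hS : MeasurableSet S)
    (hR : ∀ x ∈ Ioo a b, ∀ y ∈ Ioo c d, pt x y ∈ S) :
    ∫⁻ y in Ioo c d, ∫⁻ x in Ioo a b, g (pt x y) ≤ ∫⁻ z in S, g z := by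
  have hm : Measurable fun p : ℝ × ℝ => S.indicator g (pt p.1 p.2) :=
    (hg.indicator hS).comp continuous_pt.measurable
  rw [← lintegral_indicator hS, ← lint_eq _ (hg.indicator hS), Measure.volume_eq_prod,
    lintegral_prod_symm' _ hm]
  refine (setLIntegral_mono' (g := fun y => ∫⁻ x, S.indicator g (pt x y)) measurableSet_Ioo
    fun y hy => ?_).trans (setLIntegral_le_lintegral _ _)
  refine (setLIntegral_mono' (g := fun x => S.indicator g (pt x y)) measurableSet_Ioo
    fun x hx => ?_).trans (setLIntegral_le_lintegral _ _)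
  rw [indicator_of_mem (hR x hx y hy)]

theorem lint_ver {a b c d : ℝ} (g : ℂ → ℝ≥0∞) (hg : Measurable g) (S : Set ℂ) (hS : MeasurableSet S)
    (hR : ∀ x ∈ Ioo a b, ∀ y ∈ Ioo c d, pt x y ∈ S) :
    ∫⁻ x in Ioo a b, ∫⁻ y in Ioo c d, g (pt x y) ≤ ∫⁻ z in S, g z := by
  have hm : Measurable fun p : ℝ × ℝ => S.indicator g (pt p.1 p.2) :=
    (hg.indicator hS).comp continuous_pt.measurable
  rw [← lintegral_indicator hS, ← lint_eq _ (hg.indicator hS), Measure.volume_eq_prod,
    lintegral_prod _ hm.aemeasurable]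
  refine (setLIntegral_mono' (g := fun x => ∫⁻ y, S.indicator g (pt x y)) measurableSet_Ioo
    fun x hx => ?_).trans (setLIntegral_le_lintegral _ _)
  refine (setLIntegral_mono' (g := fun y => S.indicator g (pt x y)) measurableSet_Ioo
    fun y hy => ?_).trans (setLIntegral_le_lintegral _ _)
  rw [indicator_of_mem (hR x hx y hy)]

/-- a.e. statements on a set restrict to rectangles -/
theorem ae_rect {a b c d : ℝ} {S : Set ℂ} (hS : MeasurableSet S) {P : ℂ → Prop}
    (h : ∀ᵐ z ∂(volume.restrict S), P z) (hR : ∀ x ∈ Ioo a b, ∀ y ∈ Ioo c d, pt x y ∈ S) :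
    ∀ᵐ p ∂((volume.restrict (Ioo a b)).prod (volume.restrict (Ioo c d))), P (pt p.1 p.2) := by
  rw [Measure.prod_restrict, ← Measure.volume_eq_prod,
    ae_restrict_iff' (measurableSet_Ioo.prod measurableSet_Ioo)]
  rw [ae_restrict_iff' hS] at h
  filter_upwards [mp.quasiMeasurePreserving.ae h] with p hp hpR
  rw [pt_eq] at hp
  exact hp (hR _ hpR.1 _ hpR.2)

/-- the other order -/
theorem ae_swap {μ ν : Measure ℝ} [SFinite μ] [SFinite ν] {P : ℝ × ℝ → Prop}
    (h : ∀ᵐ p ∂(μ.prod ν), P p) : ∀ᵐ y ∂ν, ∀ᵐ x ∂μ, P (x, y) := by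
  have h1 : ∀ᵐ q ∂(ν.prod μ), P q.swap :=
    (Measure.measurePreserving_swap (μ := ν) (ν := μ)).quasiMeasurePreserving.ae h
  exact Measure.ae_ae_of_ae_prod h1

/-- back from rectangles to `ℂ` -/
theorem ae_back {a b c d : ℝ} {S : Set ℂ} (hS : MeasurableSet S) {P : ℂ → Prop}
    (h : ∀ᵐ p ∂((volume.restrict (Ioo a b)).prod (volume.restrict (Ioo c d))), P (pt p.1 p.2))
    (hR : ∀ z ∈ S, z.re ∈ Ioo a b ∧ z.im ∈ Ioo c d) : ∀ᵐ z ∂(volume.restrict S), P z := by
  rw [Measure.prod_restrict, ← Measure.volume_eq_prod,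
    ae_restrict_iff' (measurableSet_Ioo.prod measurableSet_Ioo)] at h
  rw [ae_restrict_iff' hS]
  filter_upwards [Complex.volume_preserving_equiv_real_prod.quasiMeasurePreserving.ae h] with z hz hzS
  have h1 := hz ⟨(hR z hzS).1, (hR z hzS).2⟩
  have h2 : pt (Complex.measurableEquivRealProd z).1 (Complex.measurableEquivRealProd z).2 = z := by
    rw [← pt_eq]
    exact Complex.measurableEquivRealProd.symm_apply_apply z
  rw [h2] at h1
  exact h1

end Vale.Agent.P284.H409.AE
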