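import Vale.Agent.P284.H409.AE.Lines
import Vale.Agent.P284.H409.AE.Rect
import Vale.Agent.P284.H409.AE.Circ

/-! # P284, theorem AE (helper409): row AE1d -/

open scoped Topology ENNReal
open Filter Set Metric MeasureTheory Function

noncomputable section

namespace Vale.Agent.P284.H409.AE

open Vale.Agent.P284.H894.AE

theorem hasDeriv_x (x y : ℝ) : HasDerivAt (fun x : ℝ => pt x y) 1 x := by
  have h : HasDerivAt (fun x : ℝ => (x : ℂ)) 1 x := Complex.ofRealCLM.hasDerivAt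
  exact h.add_const _

theorem hasDeriv_y (x y : ℝ) : HasDerivAt (fun y : ℝ => pt x y) Complex.I y := by
  have h : HasDerivAt (fun y : ℝ => (y : ℂ)) 1 y := Complex.ofRealCLM.hasDerivAt
  have h2 := (h.mul_const Complex.I).const_add (x : ℂ)
  rw [one_mul] at h2
  exact h2

theorem contDiff_x (y : ℝ) : ContDiff ℝ 1 fun x : ℝ => pt x y :=
  Complex.ofRealCLM.contDiff.add contDiff_const

theorem contDiff_y (x : ℝ) : ContDiff ℝ 1 fun y : ℝ => pt x y :=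
  contDiff_const.add (Complex.ofRealCLM.contDiff.mul contDiff_const)

theorem deriv_le {f : ℂ → ℝ} (hf : ContDiff ℝ 1 f) {γ : ℝ → ℂ} {t : ℝ} {v : ℂ} (hv : ‖v‖ = 1)
    (hγ : HasDerivAt γ v t) :
    ENNReal.ofReal (‖deriv (fun s => f (γ s)) t‖ ^ 2) ≤ ENNReal.ofReal (‖fderiv ℝ f (γ t)‖ ^ 2) := by
  have h1 : HasDerivAt (fun s => f (γ s)) (fderiv ℝ f (γ t) v) t :=
    ((hf.differentiable one_ne_zero (γ t)).hasFDerivAt).comp_hasDerivAt t hγ
  rw [h1.deriv]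
  refine ENNReal.ofReal_le_ofReal (pow_le_pow_left₀ (norm_nonneg _) ?_ 2)
  have h2 := (fderiv ℝ f (γ t)).le_opNorm v
  rwa [hv, mul_one] at h2

section
variable {a b c d r : ℝ} {K : ℝ≥0∞} {f : ℕ → ℂ → ℝ} {W : ℂ → ℝ} {C₀ : Set ℝ}

theorem measG (hf : ∀ k, ContDiff ℝ 1 (f k)) (k : ℕ) :
    Measurable fun z => ENNReal.ofReal (‖fderiv ℝ (f k) z‖ ^ 2) :=
  ENNReal.measurable_ofReal.comp (((hf k).continuous_fderiv one_ne_zero).norm.pow 2).measurable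

theorem hor (h1c : AE1c) (hab : a < b) (hf : ∀ k, ContDiff ℝ 1 (f k)) (hKt : K ≠ ∞)
    (hK : ∀ k, ∫⁻ z in ball (0 : ℂ) r, ENNReal.ofReal (‖fderiv ℝ (f k) z‖ ^ 2) ≤ K)
    (hR : ∀ x ∈ Ioo a b, ∀ y ∈ Ioo c d, pt x y ∈ ball (0 : ℂ) r)
    (hconv : ∀ z ∈ ball (0 : ℂ) r, Tendsto (fun k => f k z) atTop (𝓝 (W z))) (hC₀ : C₀.Countable)
    (hC : ∀ᵐ p ∂((volume.restrict (Ioo a b)).prod (volume.restrict (Ioo c d))),
      W (pt p.1 p.2) ∈ C₀) :
    ∀ᵐ y ∂(volume.restrict (Ioo c d)), ∃ c, ∀ᵐ x ∂(volume.restrict (Ioo a b)), W (pt x y) = c := by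
  have hm : ∀ k, Measurable (fun p : ℝ × ℝ => ENNReal.ofReal (‖fderiv ℝ (f k) (pt p.1 p.2)‖ ^ 2)) :=
    fun k => (measG hf k).comp continuous_pt.measurable
  have hcv : ∀ᵐ y ∂(volume.restrict (Ioo c d)), ∀ᵐ x ∂(volume.restrict (Ioo a b)),
      Tendsto (fun k => f k (pt x y)) atTop (𝓝 (W (pt x y))) := by
    filter_upwards [ae_restrict_mem measurableSet_Ioo] with y hy
    filter_upwards [ae_restrict_mem measurableSet_Ioo] with x hx
    exact hconv _ (hR x hx y hy)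
  have hF : ∀ k y, ContDiff ℝ 1 (fun x => f k (pt x y)) := fun k y => (hf k).comp (contDiff_x y)
  have hD : ∀ k x y, ENNReal.ofReal (‖deriv (fun x => f k (pt x y)) x‖ ^ 2) ≤
      ENNReal.ofReal (‖fderiv ℝ (f k) (pt x y)‖ ^ 2) := fun k x y =>
    deriv_le (hf k) (by simp) (hasDeriv_x x y)
  have hI : ∀ k, ∫⁻ y in Ioo c d, ∫⁻ x in Ioo a b,
      ENNReal.ofReal (‖fderiv ℝ (f k) (pt x y)‖ ^ 2) ≤ K := fun k =>
    (lint_hor _ (measG hf k) (ball (0 : ℂ) r) measurableSet_ball hR).trans (hK k)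
  exact line_const h1c hab (fun k x y => f k (pt x y))
    (fun k x y => ENNReal.ofReal (‖fderiv ℝ (f k) (pt x y)‖ ^ 2)) hm (fun x y => W (pt x y)) hF hD
    K hKt hI hcv C₀ hC₀ (ae_swap hC)

theorem ver (h1c : AE1c) (hcd : c < d) (hf : ∀ k, ContDiff ℝ 1 (f k)) (hKt : K ≠ ∞)
    (hK : ∀ k, ∫⁻ z in ball (0 : ℂ) r, ENNReal.ofReal (‖fderiv ℝ (f k) z‖ ^ 2) ≤ K)
    (hR : ∀ x ∈ Ioo a b, ∀ y ∈ Ioo c d, pt x y ∈ ball (0 : ℂ) r)
    (hconv : ∀ z ∈ ball (0 : ℂ) r, Tendsto (fun k => f k z) atTop (𝓝 (W z))) (hC₀ : C₀.Countable)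
    (hC : ∀ᵐ p ∂((volume.restrict (Ioo a b)).prod (volume.restrict (Ioo c d))),
      W (pt p.1 p.2) ∈ C₀) :
    ∀ᵐ x ∂(volume.restrict (Ioo a b)), ∃ c', ∀ᵐ y ∂(volume.restrict (Ioo c d)), W (pt x y) = c' := by
  have hm : ∀ k, Measurable (fun p : ℝ × ℝ => ENNReal.ofReal (‖fderiv ℝ (f k) (pt p.2 p.1)‖ ^ 2)) :=
    fun k => (measG hf k).comp (continuous_pt.measurable.comp measurable_swap)
  have hcv : ∀ᵐ x ∂(volume.restrict (Ioo a b)), ∀ᵐ y ∂(volume.restrict (Ioo c d)),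
      Tendsto (fun k => f k (pt x y)) atTop (𝓝 (W (pt x y))) := by
    filter_upwards [ae_restrict_mem measurableSet_Ioo] with x hx
    filter_upwards [ae_restrict_mem measurableSet_Ioo] with y hy
    exact hconv _ (hR x hx y hy)
  have hF : ∀ k x, ContDiff ℝ 1 (fun y => f k (pt x y)) := fun k x => (hf k).comp (contDiff_y x)
  have hD : ∀ k y x, ENNReal.ofReal (‖deriv (fun y => f k (pt x y)) y‖ ^ 2) ≤
      ENNReal.ofReal (‖fderiv ℝ (f k) (pt x y)‖ ^ 2) := fun k y x =>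
    deriv_le (hf k) (by simp) (hasDeriv_y x y)
  have hI : ∀ k, ∫⁻ x in Ioo a b, ∫⁻ y in Ioo c d,
      ENNReal.ofReal (‖fderiv ℝ (f k) (pt x y)‖ ^ 2) ≤ K := fun k =>
    (lint_ver _ (measG hf k) (ball (0 : ℂ) r) measurableSet_ball hR).trans (hK k)
  exact line_const h1c hcd (fun k y x => f k (pt x y))
    (fun k y x => ENNReal.ofReal (‖fderiv ℝ (f k) (pt x y)‖ ^ 2)) hm (fun y x => W (pt x y)) hF hD
    K hKt hI hcv C₀ hC₀ (Measure.ae_ae_of_ae_prod hC)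

end

theorem mem_rect {z₀ : ℂ} {s : ℝ} {x y : ℝ} (hx : x ∈ Ioo (z₀.re - s) (z₀.re + s))
    (hy : y ∈ Ioo (z₀.im - s) (z₀.im + s)) : ‖pt x y‖ < ‖z₀‖ + 2 * s := by
  have h1 : ‖pt x y - z₀‖ ≤ |(pt x y - z₀).re| + |(pt x y - z₀).im| :=
    Complex.norm_le_abs_re_add_abs_im _
  have h2 : (pt x y - z₀).re = x - z₀.re := by simp [pt]
  have h3 : (pt x y - z₀).im = y - z₀.im := by simp [pt]
  rw [h2, h3] at h1
  have h4 : |x - z₀.re| < s := abs_lt.2 ⟨by linarith [hx.1], by linarith [hx.2]⟩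
  have h5 : |y - z₀.im| < s := abs_lt.2 ⟨by linarith [hy.1], by linarith [hy.2]⟩
  have h6 : ‖pt x y‖ ≤ ‖pt x y - z₀‖ + ‖z₀‖ := by
    have := norm_add_le (pt x y - z₀) z₀
    rwa [sub_add_cancel] at this
  linarith

theorem ball_rect {z₀ : ℂ} {s : ℝ} {z : ℂ} (hz : z ∈ ball z₀ s) :
    z.re ∈ Ioo (z₀.re - s) (z₀.re + s) ∧ z.im ∈ Ioo (z₀.im - s) (z₀.im + s) := by
  rw [mem_ball_iff_norm] at hz
  have h8 : |(z - z₀).re| < s := (Complex.abs_re_le_norm _).trans_lt hz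
  have h9 : |(z - z₀).im| < s := (Complex.abs_im_le_norm _).trans_lt hz
  rw [Complex.sub_re, abs_lt] at h8
  rw [Complex.sub_im, abs_lt] at h9
  exact ⟨⟨by linarith [h8.1], by linarith [h8.2]⟩, ⟨by linarith [h9.1], by linarith [h9.2]⟩⟩

/-- the function is a.e. constant near every point -/
theorem ae_const (hb : AE1bConcl) (h1c : AE1c) {w : ℂ → ℝ} (hw : Sub w) {C₀ : Set ℝ}
    (hC₀ : C₀.Countable) (hC : ∀ᵐ z ∂(volume.restrict (ball (0 : ℂ) 1)), w z ∈ C₀) {z₀ : ℂ}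
    (hz₀ : z₀ ∈ ball (0 : ℂ) 1) :
    ∃ s > 0, ball z₀ s ⊆ ball 0 1 ∧ ∃ c, ∀ᵐ z ∂(volume.restrict (ball z₀ s)), w z = c := by
  have hz : ‖z₀‖ < 1 := mem_ball_zero_iff.1 hz₀
  have hz' := norm_nonneg z₀
  obtain ⟨r, hr⟩ : ∃ r : ℝ, r = (1 + ‖z₀‖) / 2 := ⟨_, rfl⟩
  obtain ⟨s, hs⟩ : ∃ s : ℝ, s = (1 - ‖z₀‖) / 4 := ⟨_, rfl⟩
  obtain ⟨f, K, hf, hconv, hK⟩ := hb w hw r (by linarith) (by linarith)
  have hs0 : 0 < s := by linarith
  have hR : ∀ x ∈ Ioo (z₀.re - s) (z₀.re + s), ∀ y ∈ Ioo (z₀.im - s) (z₀.im + s),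
      pt x y ∈ ball (0 : ℂ) r := by
    intro x hx y hy
    have := mem_rect hx hy
    rw [mem_ball_zero_iff]
    linarith
  have hR1 : ∀ x ∈ Ioo (z₀.re - s) (z₀.re + s), ∀ y ∈ Ioo (z₀.im - s) (z₀.im + s),
      pt x y ∈ ball (0 : ℂ) 1 := fun x hx y hy => ball_subset_ball (by linarith) (hR x hx y hy)
  have hsub : ball z₀ s ⊆ ball (0 : ℂ) 1 := by
    refine ball_subset_ball' ?_
    rw [dist_zero_right]
    linarith
  obtain ⟨W, hW⟩ : ∃ W : ℂ → ℝ, W = (ball (0 : ℂ) 1).indicator w := ⟨_, rfl⟩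
  have hWm : Measurable W := by
    rw [hW]
    exact measurable_ind hw.usc
  have hWe : ∀ z ∈ ball (0 : ℂ) 1, W z = w z := fun z hz => by
    rw [hW]
    exact indicator_of_mem hz _
  have hconvW : ∀ z ∈ ball (0 : ℂ) r, Tendsto (fun k => f k z) atTop (𝓝 (W z)) := by
    intro z hz
    rw [hWe z (ball_subset_ball (by linarith) hz)]
    exact hconv z hz
  have hgK : ∀ k, ∫⁻ z in ball (0 : ℂ) r, ENNReal.ofReal (‖fderiv ℝ (f k) z‖ ^ 2) ≤
      ENNReal.ofReal K := by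
    intro k
    have hfc : Continuous fun z => ‖fderiv ℝ (f k) z‖ ^ 2 :=
      ((hf k).continuous_fderiv one_ne_zero).norm.pow 2
    rw [← ofReal_integral_eq_lintegral_ofReal]
    · exact ENNReal.ofReal_le_ofReal (hK k)
    · exact (hfc.continuousOn.integrableOn_compact (isCompact_closedBall 0 r)).mono_set
        ball_subset_closedBall
    · exact Eventually.of_forall fun z => by positivity
  have hC2 : ∀ᵐ z ∂(volume.restrict (ball (0 : ℂ) 1)), W z ∈ C₀ := by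
    filter_upwards [hC, ae_restrict_mem measurableSet_ball] with z hz hz1
    rw [hWe z hz1]
    exact hz
  have hCW := ae_rect measurableSet_ball hC2 hR1
  have hhor := hor h1c (by linarith) hf ENNReal.ofReal_ne_top hgK hR hconvW hC₀ hCW
  have hver := ver h1c (by linarith) hf ENNReal.ofReal_ne_top hgK hR hconvW hC₀ hCW
  have hμ : (volume : Measure ℝ).restrict (Ioo (z₀.re - s) (z₀.re + s)) ≠ 0 := by
    rw [Ne, Measure.restrict_eq_zero, Real.volume_Ioo, ENNReal.ofReal_eq_zero]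
    linarith
  have hm2 : Measurable fun p : ℝ × ℝ => W (pt p.1 p.2) := hWm.comp continuous_pt.measurable
  obtain ⟨c, hc⟩ := const_of_lines hμ _ hm2 hhor hver
  have h7 : ∀ᵐ z ∂(volume.restrict (ball z₀ s)), W z = c :=
    ae_back measurableSet_ball hc fun z hz => ball_rect hz
  refine ⟨s, hs0, hsub, c, ?_⟩
  filter_upwards [h7, ae_restrict_mem measurableSet_ball] with z hz hz1
  rw [← hWe z (hsub hz1)]
  exact hz

/-- from almost everywhere to everywhere -/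
theorem eq_of_ae (h1a : AE1a) {w : ℂ → ℝ} (hw : Sub w) {z₀ : ℂ} {s c : ℝ}
    (hs : ball z₀ s ⊆ ball (0 : ℂ) 1) (h : ∀ᵐ z ∂(volume.restrict (ball z₀ s)), w z = c) :
    ∀ z ∈ ball z₀ s, w z = c := by
  intro z hz
  have hle : w z ≤ c := by
    have hρ : 0 < s - dist z z₀ := by
      rw [mem_ball] at hz
      linarith
    have hsub : ball z (s - dist z z₀) ⊆ ball z₀ s := ball_subset_ball' (by linarith)
    obtain ⟨ρ, hρ', hc⟩ := exists_circle w z c _ hρ (ae_restrict_of_ae_restrict_of_subset hsub h)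
    rw [← hc]
    exact h1a w hw z ρ hρ'.1 ((closedBall_subset_ball hρ'.2).trans (hsub.trans hs))
  by_contra hne
  have hlt : w z < c := lt_of_le_of_ne hle hne
  have h1 := hw.usc z (hs hz) c hlt
  obtain ⟨δ, hδ, hδw⟩ := Metric.eventually_nhds_iff_ball.1 (h1.and (isOpen_ball.mem_nhds hz))
  rw [ae_restrict_iff' measurableSet_ball] at h
  have h2 : volume (ball z δ) = 0 := by
    refine measure_mono_null ?_ h
    intro y hy hy2
    exact (hδw y hy).1.ne (hy2 (hδw y hy).2)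
  exact (measure_ball_pos volume z hδ).ne' h2

/-- **AE1d** -/
theorem ae1d : Vale.Agent.P284.H894.AE.AE1d := by
  intro h1a hb h1c w hw C₀ hC₀ hC
  have hloc : ∀ z ∈ ball (0 : ℂ) 1, ∃ c, w =ᶠ[𝓝 z] fun _ => c := by
    intro z hz
    obtain ⟨s, hs0, hs, c, hc⟩ := ae_const hb h1c hw hC₀ hC hz
    exact ⟨c, Filter.mem_of_superset (ball_mem_nhds z hs0) fun y hy => eq_of_ae h1a hw hs hc y hy⟩
  intro z hz
  refine isOpen_ball.is_const_of_fderiv_eq_zero (𝕜 := ℝ) (convex_ball (0 : ℂ) 1).isPreconnected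
    ?_ ?_ hz (mem_ball_self one_pos)
  · intro y hy
    obtain ⟨c, hc⟩ := hloc y hy
    exact ((differentiableAt_const c).congr_of_eventuallyEq hc).differentiableWithinAt
  · intro y hy
    obtain ⟨c, hc⟩ := hloc y hy
    rw [hc.fderiv_eq]
    simp

end Vale.Agent.P284.H409.AE
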