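import Mathlib.MeasureTheory.Integral.Prod
import Mathlib.MeasureTheory.Measure.Lebesgue.Complex
import Mathlib.MeasureTheory.Integral.CircleAverage
import Mathlib.Analysis.Calculus.MeanValue
import Mathlib.Analysis.Calculus.ContDiff.Basic

/-! # P284, theorem AE (helper409): a function which is almost everywhere constant on almost all
horizontal and vertical lines -/

open scoped Topology ENNReal
open Filter Set Metric MeasureTheory

noncomputable section

namespace Vale.Agent.P284.H409.AE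

/-- Fubini: a function which is a.e. constant on almost all horizontal and vertical lines is a.e.
constant -/
theorem const_of_lines {μ ν : Measure ℝ} [IsFiniteMeasure μ] [IsFiniteMeasure ν] (hμ : μ ≠ 0)
    (W : ℝ × ℝ → ℝ) (hW : Measurable W) (h1 : ∀ᵐ y ∂ν, ∃ c, ∀ᵐ x ∂μ, W (x, y) = c)
    (h2 : ∀ᵐ x ∂μ, ∃ c, ∀ᵐ y ∂ν, W (x, y) = c) : ∃ c, ∀ᵐ p ∂(μ.prod ν), W p = c := by
  have hμu : (μ univ).toReal ≠ 0 := by
    rw [ENNReal.toReal_ne_zero]
    exact ⟨by simpa using hμ, measure_ne_top _ _⟩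
  set m : ℝ → ℝ := fun y => (μ univ).toReal⁻¹ * ∫ x, W (x, y) ∂μ with hm
  have hmm : Measurable m := by
    have h3 : StronglyMeasurable fun y => ∫ x, W (x, y) ∂μ :=
      (hW.stronglyMeasurable).integral_prod_left'
    exact h3.measurable.const_mul _
  have h1' : ∀ᵐ y ∂ν, ∀ᵐ x ∂μ, W (x, y) = m y := by
    filter_upwards [h1] with y hy
    obtain ⟨c, hc⟩ := hy
    have h3 : m y = c := by
      rw [hm]
      simp only
      rw [integral_congr_ae hc, integral_const, smul_eq_mul, measureReal_def]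
      field_simp
    rw [h3]
    exact hc
  have hset : MeasurableSet {p : ℝ × ℝ | W (p.1, p.2) = m p.2} :=
    measurableSet_eq_fun hW (hmm.comp measurable_snd)
  have h1'' : ∀ᵐ x ∂μ, ∀ᵐ y ∂ν, W (x, y) = m y := (Measure.ae_ae_comm hset).2 h1'
  have : (ae μ).NeBot := ae_neBot.2 hμ
  obtain ⟨x₀, hx₀, c, hc⟩ := (h1''.and h2).exists
  refine ⟨c, ?_⟩
  have hset2 : MeasurableSet {p : ℝ × ℝ | W p = c} := measurableSet_eq_fun hW measurable_const
  rw [Measure.ae_prod_iff_ae_ae hset2]
  have hset3 : MeasurableSet {p : ℝ × ℝ | W (p.1, p.2) = c} := hset2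
  rw [Measure.ae_ae_comm hset3]
  filter_upwards [h1', hx₀, hc] with y hy1 hy2 hy3
  filter_upwards [hy1] with x hx
  rw [hx, ← hy2, hy3]

end Vale.Agent.P284.H409.AE
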