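import Vale.Agent.P284.H409.AE.Fub
import Vale.Agent.P284.H894.AE.Spec

/-! # P284, theorem AE (helper409): Fatou on lines -/

open scoped Topology ENNReal
open Filter Set Metric MeasureTheory Function

noncomputable section

namespace Vale.Agent.P284.H409.AE

/-- on almost every line the energies have a bounded subsequence, so the limit is a.e. constant there -/
theorem line_const (h1c : H894.AE.AE1c) {a b c d : ℝ} (hab : a < b) (F : ℕ → ℝ → ℝ → ℝ)
    (D : ℕ → ℝ → ℝ → ℝ≥0∞) (hDm : ∀ k, Measurable (fun p : ℝ × ℝ => D k p.1 p.2))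
    (W : ℝ → ℝ → ℝ) (hF : ∀ k y, ContDiff ℝ 1 (fun x => F k x y))
    (hD : ∀ k x y, ENNReal.ofReal (‖deriv (fun x => F k x y) x‖ ^ 2) ≤ D k x y)
    (K : ℝ≥0∞) (hK : K ≠ ∞) (hDK : ∀ k, ∫⁻ y in Ioo c d, ∫⁻ x in Ioo a b, D k x y ≤ K)
    (hconv : ∀ᵐ y ∂(volume.restrict (Ioo c d)), ∀ᵐ x ∂(volume.restrict (Ioo a b)),
      Tendsto (fun k => F k x y) atTop (𝓝 (W x y)))
    (C₀ : Set ℝ) (hC₀ : C₀.Countable)
    (hC : ∀ᵐ y ∂(volume.restrict (Ioo c d)), ∀ᵐ x ∂(volume.restrict (Ioo a b)), W x y ∈ C₀) :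
    ∀ᵐ y ∂(volume.restrict (Ioo c d)), ∃ c, ∀ᵐ x ∂(volume.restrict (Ioo a b)), W x y = c := by
  set h : ℕ → ℝ → ℝ≥0∞ := fun k y => ∫⁻ x in Ioo a b, D k x y with hh
  have hm : ∀ k, Measurable (h k) := fun k => (hDm k).lintegral_prod_left'
  have hfat : ∫⁻ y in Ioo c d, liminf (fun k => h k y) atTop ≤ K := by
    refine (lintegral_liminf_le hm).trans ?_
    refine (liminf_le_liminf (Eventually.of_forall hDK)).trans ?_
    simp
  have hlt : ∀ᵐ y ∂(volume.restrict (Ioo c d)), liminf (fun k => h k y) atTop < ∞ :=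
    ae_lt_top (Measurable.liminf hm) (ne_top_of_le_ne_top hK hfat)
  filter_upwards [hlt, hconv, hC] with y hy1 hy2 hy3
  obtain ⟨M, hM1, hM2⟩ := exists_between hy1
  have hfr : ∃ᶠ k in atTop, h k y < M := frequently_lt_of_liminf_lt (by isBoundedDefault) hM1
  refine h1c a b M.toReal hab (fun k x => F k x y) (fun x => W x y) (fun k => hF k y) hy2 ?_ C₀ hC₀ hy3
  refine hfr.mono fun k hk => ?_
  have hsm : AEStronglyMeasurable (fun x => ‖deriv (fun x => F k x y) x‖ ^ 2)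
      (volume.restrict (Ioo a b)) :=
    (((hF k y).continuous_deriv le_rfl).norm.pow 2).aestronglyMeasurable
  rw [integral_eq_lintegral_of_nonneg_ae (Eventually.of_forall fun x => by positivity) hsm]
  refine ENNReal.toReal_mono hM2.ne ?_
  refine (lintegral_mono fun x => hD k x y).trans hk.le

end Vale.Agent.P284.H409.AE
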